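import Mathlib
import Vale.Agent.P047.Main

/-! The Gopalan-Servedio square-root conjecture is false, also in its weak form. -/

namespace Vale.Agent.Results.P047.SqrtFalse

open Finset

/-- Fourier coefficient of a function on the Boolean cube (`false` is `1`, `true` is `-1`). -/
noncomputable def fourier {n : ℕ} (f : (Fin n → Bool) → ℝ) (S : Finset (Fin n)) : ℝ :=
  (∑ x : Fin n → Bool, f x * ∏ i ∈ S, (if x i then (-1 : ℝ) else 1)) / 2 ^ n

/-- The largest size of a set with nonzero Fourier coefficient (zero for constants). -/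
noncomputable def fdeg {n : ℕ} (f : (Fin n → Bool) → ℝ) : ℕ :=
  (univ.filter fun S : Finset (Fin n) => fourier f S ≠ 0).sup Finset.card

theorem fourier_eq {n : ℕ} (f : (Fin n → Bool) → ℝ) (S : Finset (Fin n)) :
    fourier f S = Vale.Agent.P047.hat f S := by
  simp only [fourier, Vale.Agent.P047.hat, Vale.Agent.P047.chi, Vale.Agent.P047.sg,
    Vale.Agent.P047.Nc, Fintype.card_fin]

/-- For every constant `C` some Boolean function has linear coefficients summing to more than
`C` times the square root of its degree. -/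
theorem result : ∀ C : ℝ, ∃ (n : ℕ) (f : (Fin n → Bool) → ℝ),
    (∀ x, f x = 1 ∨ f x = -1) ∧ 1 ≤ fdeg f ∧
      C * Real.sqrt (fdeg f) < ∑ i, fourier f {i} := by
  intro C
  obtain ⟨n, d, -, f, hf, hdeg, hlt⟩ := Vale.Agent.P047.large_linear_sum (|C| + 1)
  have hle : fdeg f ≤ d := by
    refine Finset.sup_le fun S hS => ?_
    by_contra hcon
    push Not at hcon
    exact (mem_filter.1 hS).2 ((fourier_eq f S).trans (hdeg S hcon))
  have hsum : ∑ i, fourier f {i} = ∑ i, Vale.Agent.P047.hat f {i} :=
    sum_congr rfl fun i _ => fourier_eq f {i}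
  have hpos : 0 < ∑ i, fourier f {i} := by
    rw [hsum]; exact lt_of_le_of_lt (mul_nonneg (by positivity) (Real.sqrt_nonneg _)) hlt
  refine ⟨n, f, hf, ?_, ?_⟩
  · obtain ⟨i, -, hi⟩ := exists_ne_zero_of_sum_ne_zero (ne_of_gt hpos)
    exact le_trans (by simp) (Finset.le_sup (f := Finset.card) (mem_filter.2 ⟨mem_univ _, hi⟩))
  · rw [hsum]
    refine lt_of_le_of_lt ?_ hlt
    exact mul_le_mul (by linarith [le_abs_self C]) (Real.sqrt_le_sqrt (Nat.cast_le.2 hle))
      (Real.sqrt_nonneg _) (by positivity)

end Vale.Agent.Results.P047.SqrtFalse
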